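import Vale.Agent.P042.Residues

/-!
P042: sets with no difference a value of a quadratic with square discriminant, of size
`√N exp (c log N / log log N)`.
-/

namespace P042

open Finset

theorem exists_free (M : ℕ) (F : Finset ℤ) :
    ∃ Y : Finset ℕ, Y ⊆ range M ∧ M ≤ Y.card * (2 * F.card + 1) ∧
      ∀ y ∈ Y, ∀ y' ∈ Y, y ≠ y' → ((y : ℤ) - y') ∉ F := by
  classical
  set good := (range M).powerset.filter
    fun Y : Finset ℕ => ∀ y : ℕ, y ∈ Y → ∀ y' : ℕ, y' ∈ Y → y ≠ y' → ((y : ℤ) - y') ∉ F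
  obtain ⟨Y, hY, hmax⟩ := good.exists_max_image Finset.card ⟨∅, by simp [good]⟩
  simp only [good, Finset.mem_filter, Finset.mem_powerset] at hY hmax
  refine ⟨Y, hY.1, ?_, hY.2⟩
  set G := insert 0 (F ∪ F.image fun d => -d)
  have hcov : (range M).image (fun y : ℕ => (y : ℤ))
      ⊆ (Y ×ˢ G).image fun z => (z.1 : ℤ) + z.2 := by
    intro w hw
    obtain ⟨y, hy, rfl⟩ := Finset.mem_image.1 hw
    suffices ∃ y' ∈ Y, (y : ℤ) - y' ∈ G by
      obtain ⟨y', h1, h2⟩ := this
      exact Finset.mem_image.2 ⟨(y', (y : ℤ) - y'), Finset.mem_product.2 ⟨h1, h2⟩, by simp⟩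
    by_cases hyY : y ∈ Y
    · exact ⟨y, hyY, by simp [G]⟩
    by_contra hcon
    push Not at hcon
    have hlt : Y.card < (insert y Y).card := by rw [Finset.card_insert_of_notMem hyY]; omega
    have := hmax (insert y Y) ⟨Finset.insert_subset hy hY.1, ?_⟩
    · omega
    intro u hu v hv huv huvF
    rcases Finset.mem_insert.1 hu with rfl | hu' <;> rcases Finset.mem_insert.1 hv with rfl | hv'
    · exact huv rfl
    · exact hcon v hv' (by simp [G, huvF])
    · exact hcon u hu' (Finset.mem_insert_of_mem (Finset.mem_union_right _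
        (Finset.mem_image.2 ⟨_, huvF, by ring⟩)))
    · exact hY.2 u hu' v hv' huv huvF
  have h1 := Finset.card_le_card hcov
  rw [Finset.card_image_of_injective _ Nat.cast_injective, Finset.card_range] at h1
  refine h1.trans (Finset.card_image_le.trans ?_)
  rw [Finset.card_product]
  refine Nat.mul_le_mul_left _ ?_
  have := Finset.card_insert_le (0 : ℤ) (F ∪ F.image fun d => -d)
  have := Finset.card_union_le F (F.image fun d => -d)
  have := Finset.card_image_le (s := F) (f := fun d : ℤ => -d)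
  simp only [G]
  omega

/-- Roots modulo `q` in an interval. -/
theorem card_dvd_le (q L k : ℕ) (hq : 0 < q) {a b c : ℤ}
    (hk : ((range q).filter fun n : ℕ => (q : ℤ) ∣ a * (n : ℤ) ^ 2 + b * n + c).card ≤ k) :
    ((range L).filter fun n : ℕ => (q : ℤ) ∣ a * (n : ℤ) ^ 2 + b * n + c).card
      ≤ k * (L / q + 1) := by
  rw [← Finset.card_range (L / q + 1)]
  refine le_trans ?_ (Nat.mul_le_mul_right _ hk)
  rw [← Finset.card_product]
  refine Finset.card_le_card_of_injOn (fun n => (n % q, n / q)) ?_ ?_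
  · intro n hn
    simp only [Finset.coe_filter, Set.mem_ofPred_eq, Finset.mem_range] at hn
    simp only [Finset.coe_product, Finset.coe_filter, Set.mem_prod, Set.mem_ofPred_eq,
      Finset.mem_coe, Finset.mem_range]
    exact ⟨⟨Nat.mod_lt _ hq, dvd_value_congr.2 hn.2⟩,
      Nat.lt_succ_of_le (Nat.div_le_div_right hn.1.le)⟩
  · intro n _ m _ e
    simp only [Prod.mk.injEq] at e
    rw [← Nat.div_add_mod n q, ← Nat.div_add_mod m q, e.1, e.2]

theorem le_of_value_le {a b c : ℤ} (ha : 0 < a) {n N : ℕ} (hN : 1 ≤ N)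
    (h : a * (n : ℤ) ^ 2 + b * n + c ≤ N) :
    n < (b.natAbs + c.natAbs + 2) * (Nat.sqrt N + 1) + 1 := by
  by_contra hlt
  push Not at hlt
  set u := Nat.sqrt N + 1
  have hu : N < u * u := Nat.lt_succ_sqrt N
  have hu1 : 1 ≤ u := Nat.le_add_left _ _
  have hn : ((b.natAbs : ℤ) + c.natAbs + 2) * u ≤ n := by
    have : (b.natAbs + c.natAbs + 2) * u ≤ n := by omega
    exact_mod_cast this
  have hu' : (N : ℤ) < (u : ℤ) * u := by exact_mod_cast hu
  have hu1' : (1 : ℤ) ≤ u := by exact_mod_cast hu1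
  have hb : -(b.natAbs : ℤ) ≤ b := by omega
  have hc : -(c.natAbs : ℤ) ≤ c := by omega
  have hB : (0 : ℤ) ≤ b.natAbs := by positivity
  have hC : (0 : ℤ) ≤ c.natAbs := by positivity
  generalize (b.natAbs : ℤ) = B at *
  generalize (c.natAbs : ℤ) = C at *
  have hn0 : (0 : ℤ) ≤ n := by positivity
  generalize (n : ℤ) = x at *
  generalize (u : ℤ) = w at *
  have h1 : x ^ 2 - B * x - C ≤ a * x ^ 2 + b * x + c := by nlinarith
  have h2 : (C + 2) * w ≤ x - B := by nlinarith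
  have h3 : ((B + C + 2) * w) * ((C + 2) * w) ≤ x * (x - B) :=
    mul_le_mul hn h2 (by positivity) hn0
  have h4 : (C + 4) * (w * w) ≤ ((B + C + 2) * w) * ((C + 2) * w) := by
    have : C + 4 ≤ (B + C + 2) * (C + 2) := by nlinarith
    have := mul_le_mul_of_nonneg_right this (mul_self_nonneg w)
    linarith
  have h5 : C ≤ C * (w * w) := le_mul_of_one_le_right hC (by nlinarith)
  nlinarith

/-- The construction at a given set of primes. -/
theorem exists_set {a b c s : ℤ} (ha : 0 < a) (hdisc : b ^ 2 - 4 * a * c = s ^ 2) {N : ℕ}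
    (P : Finset ℕ) (hP : ∀ p ∈ P, p.Prime ∧ 100000000 ≤ p ∧ ¬(p : ℤ) ∣ a ∧ ¬(p : ℤ) ∣ s)
    (hq : (∏ p ∈ P, p) * (∏ p ∈ P, p) ≤ N) :
    ∃ A : Finset ℕ, A ⊆ Finset.Icc 1 N ∧
      (∀ x ∈ A, ∀ y ∈ A, ∀ n : ℕ, 1 ≤ n → (x : ℤ) - y = a * n ^ 2 + b * n + c → x = y) ∧
      3 ^ P.card * N ≤ A.card * (2 ^ P.card * (Nat.sqrt N * (12 * (b.natAbs + c.natAbs + 2) + 8))) := by
  classical
  obtain ⟨R, hR, hRc, hRd⟩ := exists_residues hdisc P hP
  have hroots := card_roots hdisc P fun p hp => ⟨(hP p hp).1, (hP p hp).2.1, (hP p hp).2.2.1⟩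
  set q := ∏ p ∈ P, p
  have hq0 : 0 < q := Finset.prod_pos fun p hp => (hP p hp).1.pos
  have hN : 1 ≤ N := le_trans (Nat.one_le_iff_ne_zero.2 (mul_ne_zero hq0.ne' hq0.ne')) hq
  set L := (b.natAbs + c.natAbs + 2) * (Nat.sqrt N + 1) + 1
  set Z := (range L).filter fun n : ℕ => (q : ℤ) ∣ a * (n : ℤ) ^ 2 + b * n + c
  set F := Z.image fun n : ℕ => (a * (n : ℤ) ^ 2 + b * n + c) / (q : ℤ)
  obtain ⟨Y, hY, hYc, hYd⟩ := exists_free (N / q) F
  set f : ℕ × ℕ → ℕ := fun z => z.1 + q * z.2 + 1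
  have hlt : ∀ z ∈ R ×ˢ Y, z.1 < q ∧ z.2 < N / q := fun z hz =>
    ⟨Finset.mem_range.1 (hR (Finset.mem_product.1 hz).1),
      Finset.mem_range.1 (hY (Finset.mem_product.1 hz).2)⟩
  have hle : ∀ z ∈ R ×ˢ Y, f z ≤ N := fun z hz => by
    obtain ⟨h1, h2⟩ := hlt z hz
    have := Nat.mul_le_mul_left q (Nat.succ_le_of_lt h2)
    rw [Nat.mul_succ] at this
    have := Nat.mul_div_le N q
    simp only [f]
    omega
  have hinj : Set.InjOn f ↑(R ×ˢ Y) := fun z hz z' hz' e => by
    obtain ⟨h1, -⟩ := hlt z hz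
    obtain ⟨h1', -⟩ := hlt z' hz'
    simp only [f, Nat.add_right_cancel_iff] at e
    have e1 := congrArg (· % q) e
    have e2 := congrArg (· / q) e
    simp only [Nat.add_mul_mod_self_left, Nat.mod_eq_of_lt h1, Nat.mod_eq_of_lt h1'] at e1
    simp only [Nat.add_mul_div_left _ _ hq0, Nat.div_eq_of_lt h1, Nat.div_eq_of_lt h1', zero_add] at e2
    exact Prod.ext e1 e2
  refine ⟨(R ×ˢ Y).image f, ?_, ?_, ?_⟩
  · intro x hx
    obtain ⟨z, hz, rfl⟩ := Finset.mem_image.1 hx
    exact Finset.mem_Icc.2 ⟨Nat.le_add_left _ _, hle z hz⟩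
  · intro x hx y hy n hn he
    obtain ⟨z, hz, rfl⟩ := Finset.mem_image.1 hx
    obtain ⟨z', hz', rfl⟩ := Finset.mem_image.1 hy
    by_contra hne
    have hfz : ∀ w : ℕ × ℕ, (f w : ℤ) = w.1 + q * w.2 + 1 := fun w => by simp [f]
    by_cases h1 : z.1 = z'.1
    · have h2 : z.2 ≠ z'.2 := fun h2 => hne (by rw [Prod.ext h1 h2])
      have hval : a * (n : ℤ) ^ 2 + b * n + c = (q : ℤ) * ((z.2 : ℤ) - z'.2) := by
        rw [← he, hfz, hfz, h1]; ring
      refine hYd _ (Finset.mem_product.1 hz).2 _ (Finset.mem_product.1 hz').2 h2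
        (Finset.mem_image.2 ⟨n, Finset.mem_filter.2 ⟨?_, ?_⟩, ?_⟩)
      · have := hle z hz
        exact Finset.mem_range.2 (le_of_value_le ha hN (by omega))
      · exact hval ▸ Dvd.intro _ rfl
      · rw [hval]; exact Int.mul_ediv_cancel_left _ (by exact_mod_cast hq0.ne')
    · refine hRd _ (Finset.mem_product.1 hz).1 _ (Finset.mem_product.1 hz').1 h1 n
        ⟨(z.2 : ℤ) - z'.2, ?_⟩
      rw [← he, hfz, hfz]; ring
  rw [Finset.card_image_of_injOn hinj, Finset.card_product, hRc]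
  have hS1 : 1 ≤ Nat.sqrt N := Nat.sqrt_pos.2 hN
  have hqS : q ≤ Nat.sqrt N := Nat.le_sqrt.2 hq
  set T := 2 ^ P.card
  set C := b.natAbs + c.natAbs + 2
  have hT : 1 ≤ T := Nat.one_le_two_pow
  have hF : F.card ≤ T * (L / q + 1) := Finset.card_image_le.trans (card_dvd_le q L T hq0 hroots)
  have hM : N ≤ 2 * (q * (N / q)) := by
    have := Nat.div_add_mod N q
    have := Nat.mod_lt N hq0
    have : q ≤ q * (N / q) := Nat.le_mul_of_pos_right _ (Nat.div_pos
      (le_trans hqS (Nat.sqrt_le_self N)) hq0)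
    omega
  have hqF : q * (2 * F.card + 1) ≤ T * (Nat.sqrt N * (6 * C + 4)) := by
    have hL : L ≤ Nat.sqrt N * (2 * C + 1) := by
      have := Nat.le_mul_of_pos_right C hS1
      show C * (Nat.sqrt N + 1) + 1 ≤ _
      linarith
    have h1 := Nat.mul_div_le L q
    have h2 : q * F.card ≤ T * (Nat.sqrt N * (2 * C + 2)) := by
      calc q * F.card ≤ q * (T * (L / q + 1)) := Nat.mul_le_mul_left _ hF
        _ = T * (q * (L / q) + q) := by ring
        _ ≤ _ := Nat.mul_le_mul_left _ (by linarith)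
    calc q * (2 * F.card + 1) = 2 * (q * F.card) + q := by ring
      _ ≤ 2 * (T * (Nat.sqrt N * (2 * C + 2))) + T * Nat.sqrt N :=
          add_le_add (Nat.mul_le_mul_left _ h2) (hqS.trans (Nat.le_mul_of_pos_left _ hT))
      _ ≤ _ := by
        have : T * Nat.sqrt N * 1 ≤ T * Nat.sqrt N * C := Nat.mul_le_mul_left _ (by omega)
        have : 0 ≤ T * Nat.sqrt N * C := Nat.zero_le _
        linarith
  calc 3 ^ P.card * N ≤ 3 ^ P.card * (2 * (q * (Y.card * (2 * F.card + 1)))) :=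
        Nat.mul_le_mul_left _ (hM.trans (Nat.mul_le_mul_left _ (Nat.mul_le_mul_left _ hYc)))
    _ = 3 ^ P.card * Y.card * (2 * (q * (2 * F.card + 1))) := by ring
    _ ≤ 3 ^ P.card * Y.card * (2 * (T * (Nat.sqrt N * (6 * C + 4)))) :=
        Nat.mul_le_mul_left _ (Nat.mul_le_mul_left _ hqF)
    _ = _ := by ring

theorem primes_eventually (z0 : ℕ) :
    ∃ z1 : ℕ, ∀ z : ℕ, z1 ≤ z → (z : ℝ) / (4 * Real.log z)
      ≤ (((range (z + 1)).filter fun p => p.Prime ∧ z0 < p).card : ℝ) := by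
  have hl1 : Real.log =o[Filter.atTop] (id : ℝ → ℝ) := Real.isLittleO_log_id_atTop
  have hl2 : Real.log =o[Filter.atTop] fun x : ℝ => x ^ (1 / 2 : ℝ) :=
    isLittleO_log_rpow_atTop (by norm_num)
  have e1 := hl1.bound (show (0 : ℝ) < 1 / (100 * (z0 + 4)) by positivity)
  have e2 := hl2.bound (show (0 : ℝ) < 1 / 100 by norm_num)
  obtain ⟨X, hX⟩ := Filter.eventually_atTop.1 (e1.and e2)
  refine ⟨⌈X⌉₊ + 10000, fun z hz => ?_⟩
  have hzX : X ≤ (z : ℝ) := le_trans (Nat.le_ceil X) (by exact_mod_cast (show ⌈X⌉₊ ≤ z by omega))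
  have hz4 : (10000 : ℝ) ≤ z := by exact_mod_cast (show 10000 ≤ z by omega)
  obtain ⟨b1, b2⟩ := hX z hzX
  have hlog : 0 < Real.log z := Real.log_pos (by linarith)
  simp only [id_eq, Real.norm_eq_abs, abs_of_pos hlog, abs_of_pos (show (0 : ℝ) < z by linarith),
    ← Real.sqrt_eq_rpow, abs_of_nonneg (Real.sqrt_nonneg _)] at b1 b2
  have hthe := Chebyshev.theta_ge z
  have hsq : Real.sqrt z * Real.sqrt z = z := Real.mul_self_sqrt (by linarith)
  have h1 : Real.log ((z : ℝ) + 1) ≤ 2 * Real.log z := by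
    rw [← Real.log_rpow (by linarith), Real.rpow_two]
    exact Real.log_le_log (by linarith) (by nlinarith)
  have h2 : 2 * Real.sqrt z * Real.log z ≤ z / 50 := by
    have := mul_le_mul_of_nonneg_left b2 (Real.sqrt_nonneg (z : ℝ))
    nlinarith
  have h3 : (z0 + 4 : ℝ) * Real.log z ≤ z / 100 := by
    have := mul_le_mul_of_nonneg_left b1 (show (0 : ℝ) ≤ z0 + 4 by positivity)
    refine this.trans (le_of_eq ?_)
    field_simp
  have hl2' : (0.6 : ℝ) ≤ Real.log 2 := by linarith [Real.log_two_gt_d9]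
  have hth : Chebyshev.theta z ≤ (Nat.primesLE z).card * Real.log z := by
    rw [Chebyshev.theta_eq_sum_primesLE_log, ← nsmul_eq_mul, ← Finset.sum_const]
    refine Finset.sum_le_sum fun p hp => ?_
    rw [Nat.mem_primesLE] at hp
    exact Real.log_le_log (by exact_mod_cast hp.2.pos) (by exact_mod_cast hp.1)
  have hcard : (Nat.primesLE z).card ≤
      ((range (z + 1)).filter fun p => p.Prime ∧ z0 < p).card + (z0 + 1) := by
    rw [← Finset.card_range (z0 + 1)]
    refine le_trans (Finset.card_le_card fun p hp => ?_) (Finset.card_union_le _ _)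
    rw [Nat.mem_primesLE] at hp
    simp only [Finset.mem_union, Finset.mem_filter, Finset.mem_range]
    by_cases h : z0 < p
    · exact Or.inl ⟨by omega, hp.2, h⟩
    · exact Or.inr (by omega)
  have hcard' : ((Nat.primesLE z).card : ℝ) ≤
      ((range (z + 1)).filter fun p => p.Prime ∧ z0 < p).card + ((z0 : ℝ) + 1) := by
    exact_mod_cast hcard
  have := mul_le_mul_of_nonneg_right hcard' hlog.le
  rw [div_le_iff₀ (by positivity)]
  nlinarith

/-- The lower bound. -/
theorem lower_bound {a b c s : ℤ} (ha : 0 < a) (hs : s ≠ 0)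
    (hdisc : b ^ 2 - 4 * a * c = s ^ 2) :
    ∃ κ : ℝ, 0 < κ ∧ ∃ N0 : ℕ, ∀ N : ℕ, N0 ≤ N → ∃ A : Finset ℕ, A ⊆ Finset.Icc 1 N ∧
      (∀ x ∈ A, ∀ y ∈ A, ∀ n : ℕ, 1 ≤ n → (x : ℤ) - y = a * n ^ 2 + b * n + c → x = y) ∧
      Real.sqrt N * Real.exp (κ * Real.log N / Real.log (Real.log N)) ≤ A.card := by
  set z0 := 100000000 + a.natAbs + s.natAbs with hz0
  obtain ⟨z1, hz1⟩ := primes_eventually z0
  set D : ℝ := 12 * ((b.natAbs : ℝ) + c.natAbs + 2) + 8
  have hD : 0 < D := by positivity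
  have hl16 : 0 < Real.log 16 := Real.log_pos (by norm_num)
  have hl32 : (1 / 3 : ℝ) ≤ Real.log (3 / 2) := by
    have := Real.one_sub_inv_le_log_of_pos (show (0 : ℝ) < 3 / 2 by norm_num)
    norm_num at this ⊢
    linarith
  set g : ℝ := 1 / (8 * Real.log 16) with hg
  have hg0 : 0 < g := by positivity
  refine ⟨g / 6, by positivity, ?_⟩
  have hlim : Filter.Tendsto (fun x : ℝ => x / Real.log x) Filter.atTop Filter.atTop := by
    have h := Real.isLittleO_log_id_atTop.tendsto_div_nhds_zero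
    simp only [id_eq] at h
    have h' : Filter.Tendsto (fun x : ℝ => Real.log x / x) Filter.atTop (nhdsWithin 0 (Set.Ioi 0)) := by
      rw [tendsto_nhdsWithin_iff]
      exact ⟨h, by
        filter_upwards [Filter.eventually_gt_atTop 1] with x hx
        exact div_pos (Real.log_pos hx) (by linarith)⟩
    refine h'.inv_tendsto_nhdsGT_zero.congr fun x => ?_
    simp [inv_div]
  obtain ⟨X, hX⟩ := Filter.eventually_atTop.1
    (hlim.eventually_ge_atTop (6 * (|Real.log D| + 1) / g))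
  refine ⟨16 ^ (z1 + 3) + ⌈Real.exp X⌉₊, fun N hN => ?_⟩
  have hN16 : 16 ^ (z1 + 3) ≤ N := le_trans (Nat.le_add_right _ _) hN
  have hN0 : 0 < N := lt_of_lt_of_le (by positivity) hN16
  set z := Nat.log 16 N with hz
  have hzge : z1 + 3 ≤ z := Nat.le_log_of_pow_le (by norm_num) hN16
  set P := (range (z + 1)).filter fun p => p.Prime ∧ z0 < p with hP
  have hpz : (∏ p ∈ P, p) ≤ 4 ^ z := by
    refine le_trans (Nat.le_of_dvd (primorial_pos z) ?_) (primorial_le_four_pow z)
    refine Finset.prod_dvd_prod_of_subset _ _ _ fun p hp => ?_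
    simp only [hP, Finset.mem_filter] at hp ⊢
    exact ⟨hp.1, hp.2.1⟩
  have h16 : 16 ^ z ≤ N := Nat.pow_log_le_self 16 hN0.ne'
  have hq : (∏ p ∈ P, p) * (∏ p ∈ P, p) ≤ N := by
    refine le_trans (Nat.mul_le_mul hpz hpz) (le_trans (le_of_eq ?_) h16)
    rw [← mul_pow]; norm_num
  obtain ⟨A, hA1, hA2, hA3⟩ := exists_set ha hdisc P (fun p hp => by
    simp only [hP, Finset.mem_filter] at hp
    obtain ⟨-, hpp, hp0⟩ := hp
    refine ⟨hpp, by omega, fun h => ?_, fun h => ?_⟩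
    · have := Nat.le_of_dvd (by omega) (Int.natCast_dvd.1 h)
      omega
    · have := Nat.le_of_dvd (by omega) (Int.natCast_dvd.1 h)
      omega) hq
  refine ⟨A, hA1, hA2, ?_⟩
  set t := P.card
  have ht : (z : ℝ) / (4 * Real.log z) ≤ t := hz1 z (by omega)
  have hN' : (0 : ℝ) < N := by exact_mod_cast hN0
  set Lg := Real.log N
  have hzlo : (z : ℝ) * Real.log 16 ≤ Lg := by
    rw [← Real.log_pow]; exact Real.log_le_log (by positivity) (by exact_mod_cast h16)
  have hzhi : Lg ≤ ((z : ℝ) + 1) * Real.log 16 := by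
    have h : N < 16 ^ (z + 1) := Nat.lt_pow_succ_log_self (by norm_num) N
    have := Real.log_le_log hN' (show (N : ℝ) ≤ ((16 ^ (z + 1) : ℕ) : ℝ) by exact_mod_cast h.le)
    push_cast [Real.log_pow] at this
    exact this
  have hz3 : (3 : ℝ) ≤ z := by exact_mod_cast (show 3 ≤ z by omega)
  have hlz : 0 < Real.log z := Real.log_pos (by linarith)
  have hl16' : 1 ≤ Real.log 16 := by
    rw [show (16 : ℝ) = 2 ^ 4 by norm_num, Real.log_pow]
    push_cast; linarith [Real.log_two_gt_d9]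
  have hzL : (z : ℝ) ≤ Lg := le_trans (le_mul_of_one_le_right (by linarith) hl16') hzlo
  have hLL : Real.log z ≤ Real.log Lg := Real.log_le_log (by linarith) hzL
  have hLL0 : 0 < Real.log Lg := lt_of_lt_of_le hlz hLL
  have hkey : g * (Lg / Real.log Lg) ≤ t := by
    refine le_trans ?_ ht
    calc g * (Lg / Real.log Lg) ≤ g * (2 * z * Real.log 16 / Real.log Lg) := by
          gcongr; nlinarith
      _ = (z : ℝ) / (4 * Real.log Lg) := by rw [hg]; field_simp; ring
      _ ≤ _ := div_le_div_of_nonneg_left (by linarith) (by positivity) (by linarith)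
  have hLgX : X ≤ Lg := by
    have h : Real.exp X ≤ N := le_trans (Nat.le_ceil _)
      (by exact_mod_cast le_trans (Nat.le_add_left _ _) hN)
    exact (Real.le_log_iff_exp_le hN').2 h
  have hbig := hX Lg hLgX
  rw [div_le_iff₀ hg0] at hbig
  have hexp : g / 6 * Lg / Real.log Lg + Real.log D ≤ t * Real.log (3 / 2) := by
    have h1 := mul_le_mul_of_nonneg_left hl32 (show (0 : ℝ) ≤ t by positivity)
    have h2 := le_abs_self (Real.log D)
    have h3 : g / 6 * Lg / Real.log Lg = g * (Lg / Real.log Lg) / 6 := by ring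
    rw [h3]
    nlinarith
  have hS : (Nat.sqrt N : ℝ) ≤ Real.sqrt N := Real.nat_sqrt_le_real_sqrt
  have hA3' : (3 : ℝ) ^ t * N ≤ (A.card : ℝ) * (2 ^ t * (Real.sqrt N * D)) := by
    refine le_trans (show (3 : ℝ) ^ t * N ≤ (A.card : ℝ) * (2 ^ t * ((Nat.sqrt N : ℝ) * D)) by
      simp only [D]; exact_mod_cast hA3) ?_
    gcongr
  have hsq : Real.sqrt N * Real.sqrt N = N := Real.mul_self_sqrt hN'.le
  have hS0 : 0 < Real.sqrt N := Real.sqrt_pos.2 hN'
  have h32 : Real.sqrt N * (3 / 2 : ℝ) ^ t ≤ A.card * D := by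
    rw [div_pow, mul_div_assoc', div_le_iff₀ (by positivity)]
    refine le_of_mul_le_mul_right ?_ hS0
    calc Real.sqrt N * (3 : ℝ) ^ t * Real.sqrt N = 3 ^ t * (Real.sqrt N * Real.sqrt N) := by ring
      _ ≤ _ := by rw [hsq]; exact hA3'.trans_eq (by ring)
  refine le_of_mul_le_mul_right (le_trans ?_ h32) hD
  rw [mul_assoc]
  refine mul_le_mul_of_nonneg_left ?_ hS0.le
  calc Real.exp (g / 6 * Lg / Real.log Lg) * D
      = Real.exp (g / 6 * Lg / Real.log Lg + Real.log D) := by rw [Real.exp_add, Real.exp_log hD]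
    _ ≤ Real.exp (t * Real.log (3 / 2)) := Real.exp_le_exp.2 hexp
    _ = _ := by rw [Real.exp_nat_mul, Real.exp_log (by norm_num)]

end P042
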