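import Vale.Agent.P042.Triangle

/-!
P042: residue systems modulo a product of large primes. Three residues at each prime whose
differences are never values of the quadratic, and at most two roots at each prime.
-/

namespace P042

open Finset

variable {p : ℕ} [Fact p.Prime]

theorem not_isSquare_of_mem_dset {d : ZMod p} (h : d ∈ dset p) :
    ¬IsSquare (1 + d) ∧ ¬IsSquare (1 - d) := by
  simp only [dset, Finset.mem_filter, Finset.mem_univ, true_and] at h
  exact ⟨quadraticChar_neg_one_iff_not_isSquare.1 h.1, quadraticChar_neg_one_iff_not_isSquare.1 h.2⟩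

/-- Three residues whose differences are never values of `a n² + b n + c` mod `p`. -/
theorem exists_three (hp : 100000000 ≤ p) {a b c s : ℤ} (ha : (a : ZMod p) ≠ 0)
    (hs : (s : ZMod p) ≠ 0) (hdisc : b ^ 2 - 4 * a * c = s ^ 2) :
    ∃ S : Finset (ZMod p), S.card = 3 ∧ ∀ x ∈ S, ∀ y ∈ S, x ≠ y →
      ∀ n : ZMod p, (a : ZMod p) * n ^ 2 + b * n + c ≠ x - y := by
  obtain ⟨u, v, hu, hv, huv⟩ := exists_triangle (p := p) hp
  have hu' := not_isSquare_of_mem_dset hu
  have hv' := not_isSquare_of_mem_dset hv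
  have huv' := not_isSquare_of_mem_dset huv
  have hu0 : u ≠ 0 := fun h => hu'.1 (by simp [h])
  have hv0 : v ≠ 0 := fun h => hv'.1 (by simp [h])
  have hne : u ≠ v := fun h => huv'.1 (by simp [h])
  have hp2 : p ≠ 2 := by omega
  have h4a : (4 : ZMod p) * a ≠ 0 := by
    have h2 := two_ne_zero' hp2
    rw [show (4 : ZMod p) = 2 * 2 by norm_num]
    exact mul_ne_zero (mul_ne_zero h2 h2) ha
  set k : ZMod p := (s : ZMod p) ^ 2 / (4 * a) with hk
  have hk0 : k ≠ 0 := div_ne_zero (pow_ne_zero _ hs) h4a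
  refine ⟨({0, u, v} : Finset (ZMod p)).image (k * ·), ?_, ?_⟩
  · rw [Finset.card_image_of_injective _ (mul_right_injective₀ hk0)]
    simp [hu0.symm, hv0.symm, hne]
  intro x hx y hy hxy n hn
  obtain ⟨x', hx', rfl⟩ := Finset.mem_image.1 hx
  obtain ⟨y', hy', rfl⟩ := Finset.mem_image.1 hy
  have key : ¬IsSquare (1 + (x' - y')) := by
    simp only [Finset.mem_insert, Finset.mem_singleton] at hx' hy'
    rcases hx' with rfl | rfl | rfl <;> rcases hy' with rfl | rfl | rfl <;>
      first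
        | exact absurd rfl hxy
        | exact huv'.1
        | (refine fun h => hu'.1 ?_; convert h using 1; ring1)
        | (refine fun h => hu'.2 ?_; convert h using 1; ring1)
        | (refine fun h => hv'.1 ?_; convert h using 1; ring1)
        | (refine fun h => hv'.2 ?_; convert h using 1; ring1)
        | (refine fun h => huv'.1 ?_; convert h using 1; ring1)
        | (refine fun h => huv'.2 ?_; convert h using 1; ring1)
  apply key
  refine ⟨(2 * (a : ZMod p) * n + b) / s, ?_⟩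
  have hd := congrArg (fun z : ℤ => (z : ZMod p)) hdisc
  push_cast at hd
  have hkk : 4 * (a : ZMod p) * k = (s : ZMod p) ^ 2 := by
    rw [hk]; exact mul_div_cancel₀ _ h4a
  field_simp
  linear_combination (-4 * (a : ZMod p)) * hn - hd - (x' - y') * hkk

/-- Residues modulo `q` with no difference congruent to a value. -/
theorem exists_residues {a b c s : ℤ} (hdisc : b ^ 2 - 4 * a * c = s ^ 2) (P : Finset ℕ)
    (hP : ∀ p ∈ P, p.Prime ∧ 100000000 ≤ p ∧ ¬(p : ℤ) ∣ a ∧ ¬(p : ℤ) ∣ s) :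
    ∃ R : Finset ℕ, R ⊆ range (∏ p ∈ P, p) ∧ R.card = 3 ^ P.card ∧
      ∀ x ∈ R, ∀ y ∈ R, x ≠ y → ∀ n : ℤ,
        ¬((∏ p ∈ P, p : ℕ) : ℤ) ∣ a * n ^ 2 + b * n + c - ((x : ℤ) - y) := by
  induction P using Finset.induction_on with
  | empty => exact ⟨{0}, by simp⟩
  | insert p P hp IH =>
    obtain ⟨R, hR, hRc, hRd⟩ := IH fun l hl => hP l (Finset.mem_insert_of_mem hl)
    obtain ⟨hpp, hpl, hpa, hps⟩ := hP p (Finset.mem_insert_self _ _)
    haveI := Fact.mk hpp
    have hza : (a : ZMod p) ≠ 0 := fun h => hpa ((ZMod.intCast_zmod_eq_zero_iff_dvd _ _).1 h)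
    have hzs : (s : ZMod p) ≠ 0 := fun h => hps ((ZMod.intCast_zmod_eq_zero_iff_dvd _ _).1 h)
    obtain ⟨S, hS, hSd⟩ := exists_three hpl hza hzs hdisc
    set q := ∏ l ∈ P, l
    have hcop : q.Coprime p := Nat.Coprime.prod_left fun l hl =>
      (Nat.coprime_primes (hP l (Finset.mem_insert_of_mem hl)).1 hpp).2 fun e => hp (e ▸ hl)
    have hq0 : q ≠ 0 := Finset.prod_ne_zero_iff.2 fun l hl =>
      (hP l (Finset.mem_insert_of_mem hl)).1.ne_zero
    set f : ℕ × ZMod p → ℕ := fun z => Nat.chineseRemainder hcop z.1 z.2.val with hf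
    have hfq : ∀ z, f z ≡ z.1 [MOD q] := fun z => (Nat.chineseRemainder hcop z.1 z.2.val).2.1
    have hfp : ∀ z, (f z : ZMod p) = z.2 := fun z => by
      rw [(ZMod.natCast_eq_natCast_iff _ _ _).2 (Nat.chineseRemainder hcop z.1 z.2.val).2.2,
        ZMod.natCast_zmod_val]
    have hinj : Set.InjOn f ↑(R ×ˢ S) := fun z hz z' hz' e => by
      simp only [Finset.coe_product, Set.mem_prod, Finset.mem_coe] at hz hz'
      refine Prod.ext ?_ (by rw [← hfp z, ← hfp z', e])
      exact Nat.ModEq.eq_of_lt_of_lt ((hfq z).symm.trans (e ▸ hfq z'))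
        (Finset.mem_range.1 (hR hz.1)) (Finset.mem_range.1 (hR hz'.1))
    refine ⟨(R ×ˢ S).image f, ?_, ?_, ?_⟩
    · intro r hr
      obtain ⟨z, -, rfl⟩ := Finset.mem_image.1 hr
      rw [Finset.mem_range, Finset.prod_insert hp, mul_comm]
      exact Nat.chineseRemainder_lt_mul hcop _ _ hq0 hpp.ne_zero
    · rw [Finset.card_image_of_injOn hinj, Finset.card_product, hRc, hS,
        Finset.card_insert_of_notMem hp, pow_succ]
    intro x hx y hy hxy n hdvd
    obtain ⟨z, hz, rfl⟩ := Finset.mem_image.1 hx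
    obtain ⟨z', hz', rfl⟩ := Finset.mem_image.1 hy
    rw [Finset.mem_product] at hz hz'
    rw [Finset.prod_insert hp, Nat.cast_mul] at hdvd
    by_cases h1 : z.1 = z'.1
    · have h2 : z.2 ≠ z'.2 := fun h2 => hxy (by rw [Prod.ext h1 h2])
      refine hSd _ hz.2 _ hz'.2 h2 (n : ZMod p) ?_
      have := (ZMod.intCast_zmod_eq_zero_iff_dvd _ _).2 (dvd_trans (Dvd.intro _ rfl) hdvd)
      push_cast [hfp] at this
      exact sub_eq_zero.1 this
    · refine hRd _ hz.1 _ hz'.1 h1 n ?_
      have hd1 : (q : ℤ) ∣ a * n ^ 2 + b * n + c - ((f z : ℤ) - f z') :=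
        dvd_trans (Dvd.intro_left _ rfl) hdvd
      have e1 : (q : ℤ) ∣ (f z : ℤ) - z.1 :=
        Int.modEq_iff_dvd.1 (Int.natCast_modEq_iff.2 (hfq z).symm)
      have e2 : (q : ℤ) ∣ (f z' : ℤ) - z'.1 :=
        Int.modEq_iff_dvd.1 (Int.natCast_modEq_iff.2 (hfq z').symm)
      have := (hd1.add e1).sub e2
      ring_nf at this ⊢
      exact this

theorem card_roots_prime {a b c s : ℤ} (hp2 : p ≠ 2) (ha : (a : ZMod p) ≠ 0)
    (hdisc : b ^ 2 - 4 * a * c = s ^ 2) :
    ((range p).filter fun n : ℕ => (p : ℤ) ∣ a * (n : ℤ) ^ 2 + b * n + c).card ≤ 2 := by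
  have h2 := two_ne_zero' hp2
  set r1 : ZMod p := ((s : ZMod p) - b) / (2 * a)
  set r2 : ZMod p := (-(s : ZMod p) - b) / (2 * a)
  refine le_trans (Finset.card_le_card_of_injOn (fun n : ℕ => (n : ZMod p)) (t := {r1, r2}) ?_ ?_)
    Finset.card_le_two
  · intro n hn
    simp only [Finset.coe_filter, Set.mem_ofPred_eq] at hn
    have h0 : (a : ZMod p) * (n : ZMod p) ^ 2 + b * n + c = 0 := by
      have := (ZMod.intCast_zmod_eq_zero_iff_dvd _ _).2 hn.2
      push_cast at this; exact this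
    have hd := congrArg (fun z : ℤ => (z : ZMod p)) hdisc
    push_cast at hd
    have h2a := mul_ne_zero h2 ha
    have hprod : (2 * (a : ZMod p) * n + b - s) * (2 * (a : ZMod p) * n + b + s) = 0 := by
      linear_combination 4 * (a : ZMod p) * h0 + hd
    simp only [Finset.coe_insert, Finset.coe_singleton, Set.mem_insert_iff, Set.mem_singleton_iff,
      r1, r2, eq_div_iff h2a]
    rcases mul_eq_zero.1 hprod with h | h
    · exact Or.inl (by linear_combination h)
    · exact Or.inr (by linear_combination h)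
  · intro n hn m hm e
    simp only [Finset.coe_filter, Set.mem_ofPred_eq, Finset.mem_range] at hn hm
    exact Nat.ModEq.eq_of_lt_of_lt ((ZMod.natCast_eq_natCast_iff _ _ _).1 e) hn.1 hm.1

theorem dvd_value_congr {a b c : ℤ} {l n : ℕ} :
    ((l : ℤ) ∣ a * ((n % l : ℕ) : ℤ) ^ 2 + b * (n % l : ℕ) + c) ↔
      (l : ℤ) ∣ a * (n : ℤ) ^ 2 + b * n + c := by
  rw [← ZMod.intCast_zmod_eq_zero_iff_dvd, ← ZMod.intCast_zmod_eq_zero_iff_dvd]
  push_cast [ZMod.natCast_mod]
  exact Iff.rfl

/-- At most `2 ^ #P` roots modulo the product. -/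
theorem card_roots {a b c s : ℤ} (hdisc : b ^ 2 - 4 * a * c = s ^ 2) (P : Finset ℕ)
    (hP : ∀ p ∈ P, p.Prime ∧ 100000000 ≤ p ∧ ¬(p : ℤ) ∣ a) :
    ((range (∏ p ∈ P, p)).filter
      fun n : ℕ => ((∏ p ∈ P, p : ℕ) : ℤ) ∣ a * (n : ℤ) ^ 2 + b * n + c).card ≤ 2 ^ P.card := by
  induction P using Finset.induction_on with
  | empty => simp
  | insert p P hp IH =>
    have IH' := IH fun l hl => hP l (Finset.mem_insert_of_mem hl)
    obtain ⟨hpp, hpl, hpa⟩ := hP p (Finset.mem_insert_self _ _)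
    haveI := Fact.mk hpp
    have hza : (a : ZMod p) ≠ 0 := fun h => hpa ((ZMod.intCast_zmod_eq_zero_iff_dvd _ _).1 h)
    have hc := card_roots_prime (b := b) (c := c) (s := s) (by omega) hza hdisc
    set q := ∏ l ∈ P, l
    have hcop : q.Coprime p := Nat.Coprime.prod_left fun l hl =>
      (Nat.coprime_primes (hP l (Finset.mem_insert_of_mem hl)).1 hpp).2 fun e => hp (e ▸ hl)
    have hq0 : q ≠ 0 := Finset.prod_ne_zero_iff.2 fun l hl =>
      (hP l (Finset.mem_insert_of_mem hl)).1.ne_zero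
    rw [Finset.prod_insert hp, Finset.card_insert_of_notMem hp, pow_succ, mul_comm p q]
    refine le_trans ?_ (Nat.mul_le_mul IH' hc)
    rw [← Finset.card_product]
    refine Finset.card_le_card_of_injOn (fun n => (n % q, n % p)) ?_ ?_
    · intro n hn
      simp only [Finset.coe_filter, Set.mem_ofPred_eq, Finset.mem_range, Nat.cast_mul] at hn
      simp only [Finset.coe_product, Finset.coe_filter, Set.mem_prod, Set.mem_ofPred_eq,
        Finset.mem_range]
      exact ⟨⟨Nat.mod_lt _ (Nat.pos_of_ne_zero hq0),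
          dvd_value_congr.2 (dvd_trans (Dvd.intro _ rfl) hn.2)⟩,
        ⟨Nat.mod_lt _ hpp.pos, dvd_value_congr.2 (dvd_trans (Dvd.intro_left _ rfl) hn.2)⟩⟩
    · intro n hn m hm e
      simp only [Finset.coe_filter, Set.mem_ofPred_eq, Finset.mem_range] at hn hm
      simp only [Prod.mk.injEq] at e
      exact Nat.ModEq.eq_of_lt_of_lt ((Nat.modEq_and_modEq_iff_modEq_mul hcop).1 e) hn.1 hm.1

end P042
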