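import Mathlib

/-!
P042: for a large prime `p`, the residues `d` with `1 + d` and `1 - d` both nonsquares contain a
triangle `u, v, u - v`. Gauss sums and the elementary fourth moment bound for Kloosterman sums.
-/

namespace P042

open Finset ZMod
open scoped ComplexConjugate

variable {p : ℕ} [hp : Fact p.Prime]

local instance : DecidableEq (ZMod p) := inferInstance

/-- The Kloosterman sum. -/
noncomputable def kl (s t : ZMod p) : ℂ :=
  ∑ u : (ZMod p)ˣ, stdAddChar (s * (u : ZMod p) + t * ((u⁻¹ : (ZMod p)ˣ) : ZMod p))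

theorem sum_char (b : ZMod p) :
    ∑ x : ZMod p, stdAddChar (x * b) = if b = 0 then (p : ℂ) else 0 := by
  rw [AddChar.sum_mulShift b (isPrimitive_stdAddChar p), ZMod.card]
  split_ifs <;> simp

theorem kl_scale (s t : ZMod p) (w : (ZMod p)ˣ) :
    kl (s * (w : ZMod p)) (t * ((w⁻¹ : (ZMod p)ˣ) : ZMod p)) = kl s t := by
  unfold kl
  refine Fintype.sum_equiv (Equiv.mulLeft w) _ _ fun u => ?_
  simp only [Equiv.coe_mulLeft, mul_inv_rev, Units.val_mul]
  congr 1
  ring

/-- The quadruples counted by the fourth moment. -/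
def quads (p : ℕ) [Fact p.Prime] :
    Finset (((ZMod p)ˣ × (ZMod p)ˣ) × ((ZMod p)ˣ × (ZMod p)ˣ)) :=
  univ.filter fun q => (q.1.1 : ZMod p) + q.1.2 = q.2.1 + q.2.2 ∧
    ((q.1.1⁻¹ : (ZMod p)ˣ) : ZMod p) + ((q.1.2⁻¹ : (ZMod p)ˣ) : ZMod p)
      = ((q.2.1⁻¹ : (ZMod p)ˣ) : ZMod p) + ((q.2.2⁻¹ : (ZMod p)ˣ) : ZMod p)

theorem card_quads_le : (quads p).card ≤ 3 * (Fintype.card (ZMod p)ˣ) ^ 2 := by
  set U := (ZMod p)ˣ
  set e1 : U × U → (U × U) × (U × U) := fun q => (q, q)
  set e2 : U × U → (U × U) × (U × U) := fun q => (q, (q.2, q.1))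
  set e3 : U × U → (U × U) × (U × U) := fun q => ((q.1, -q.1), (q.2, -q.2))
  have hsub : quads p ⊆ univ.image e1 ∪ univ.image e2 ∪ univ.image e3 := by
    rintro ⟨⟨w, x⟩, y, z⟩ hq
    simp only [quads, Finset.mem_filter, Finset.mem_univ, true_and, Units.val_inv_eq_inv_val] at hq
    obtain ⟨h1, h2⟩ := hq
    simp only [Finset.mem_union, Finset.mem_image, Finset.mem_univ, true_and]
    by_cases hs : (w : ZMod p) + x = 0
    · refine Or.inr ⟨(w, y), ?_⟩
      have hx : x = -w := Units.ext (by rw [Units.val_neg]; linear_combination hs)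
      have hz : z = -y := Units.ext (by rw [Units.val_neg]; linear_combination hs - h1)
      simp only [e3, hx, hz]
    · have hw := w.ne_zero
      have hx := x.ne_zero
      have hy := y.ne_zero
      have hz := z.ne_zero
      have h3 : ((w : ZMod p) + x) * ((y : ZMod p) * z - w * x) = 0 := by
        field_simp at h2
        linear_combination h2 - (w : ZMod p) * x * h1
      have h4 : (y : ZMod p) * z = w * x :=
        sub_eq_zero.1 ((mul_eq_zero.1 h3).resolve_left hs)
      have h5 : ((y : ZMod p) - w) * (y - x) = 0 := by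
        linear_combination (-(y : ZMod p)) * h1 - h4
      rcases mul_eq_zero.1 h5 with h | h
      · refine Or.inl (Or.inl ⟨(w, x), ?_⟩)
        have e : y = w := Units.ext (sub_eq_zero.1 h)
        have e' : z = x := Units.ext (by linear_combination -h1 - h)
        simp only [e1, e, e']
      · refine Or.inl (Or.inr ⟨(w, x), ?_⟩)
        have e : y = x := Units.ext (sub_eq_zero.1 h)
        have e' : z = w := Units.ext (by linear_combination -h1 - h)
        simp only [e2, e, e']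
  refine (Finset.card_le_card hsub).trans ?_
  have h := fun e : U × U → (U × U) × (U × U) => (univ : Finset (U × U)).card_image_le (f := e)
  have hu : (univ : Finset (U × U)).card = (Fintype.card U) ^ 2 := by
    simp [Fintype.card_prod, sq]
  have := Finset.card_union_le (univ.image e1 ∪ univ.image e2) (univ.image e3)
  have := Finset.card_union_le (univ.image e1) (univ.image e2)
  have := h e1
  have := h e2
  have := h e3
  have eU : Fintype.card U ^ 2 = Fintype.card (ZMod p)ˣ ^ 2 := rfl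
  omega

theorem sum_normSq_sq_kl :
    ∑ s : ZMod p, ∑ t : ZMod p, ‖kl s t‖ ^ 4 = (p : ℝ) ^ 2 * (quads p).card := by
  apply Complex.ofReal_injective
  push_cast
  have e : ∀ s t : ZMod p, (‖kl s t‖ : ℂ) ^ 4 = ∑ q : ((ZMod p)ˣ × (ZMod p)ˣ) × ((ZMod p)ˣ × (ZMod p)ˣ),
      stdAddChar (s * ((q.1.1 : ZMod p) + (q.1.2 : ZMod p) - (q.2.1 : ZMod p) - (q.2.2 : ZMod p))) *
      stdAddChar (t * (((q.1.1⁻¹ : (ZMod p)ˣ) : ZMod p) + ((q.1.2⁻¹ : (ZMod p)ˣ) : ZMod p)
        - ((q.2.1⁻¹ : (ZMod p)ˣ) : ZMod p) - ((q.2.2⁻¹ : (ZMod p)ˣ) : ZMod p))) := by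
    intro s t
    have h2 : (‖kl s t‖ : ℂ) ^ 4 = (kl s t * kl s t) * (conj (kl s t) * conj (kl s t)) := by
      rw [show (4 : ℕ) = 2 * 2 by norm_num, pow_mul, ← Complex.mul_conj']
      ring
    rw [h2, kl, map_sum, Fintype.sum_mul_sum, Fintype.sum_mul_sum, ← Fintype.sum_prod_type',
      ← Fintype.sum_prod_type', Fintype.sum_mul_sum, ← Fintype.sum_prod_type']
    refine Finset.sum_congr rfl fun q _ => ?_
    simp only [← AddChar.map_neg_eq_conj, ← AddChar.map_add_eq_mul]
    congr 1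
    ring
  simp_rw [e]
  rw [Finset.sum_congr rfl fun s _ => Finset.sum_comm, Finset.sum_comm]
  simp_rw [← Fintype.sum_mul_sum, sum_char]
  rw [quads, Finset.card_filter, Nat.cast_sum, Finset.mul_sum]
  refine Finset.sum_congr rfl fun q _ => ?_
  rw [Nat.cast_ite, Nat.cast_one, Nat.cast_zero]
  simp only [sub_sub, sub_eq_zero]
  split_ifs <;> first | (exfalso; tauto) | simp [sq]

/-- The elementary bound on the Kloosterman sum. -/
theorem norm_kl_le {s : ZMod p} (hs : s ≠ 0) : ‖kl s s‖ ^ 4 ≤ 3 * (p : ℝ) ^ 3 := by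
  set S := Fintype.card (ZMod p)ˣ
  have hS : (0 : ℝ) < S := by exact_mod_cast Fintype.card_pos
  have hSp : (S : ℝ) ≤ p := by
    have h := ZMod.card_units p
    exact_mod_cast (show S ≤ p by omega)
  set e : (ZMod p)ˣ → ZMod p × ZMod p := fun w => (s * w, s * ((w⁻¹ : (ZMod p)ˣ) : ZMod p))
  have he : Function.Injective e := fun w w' h =>
    Units.ext (mul_left_cancel₀ hs (congrArg Prod.fst h))
  have h1 : (S : ℝ) * ‖kl s s‖ ^ 4 ≤ (p : ℝ) ^ 2 * (quads p).card := by
    rw [← sum_normSq_sq_kl, ← Fintype.sum_prod_type' (f := fun s t : ZMod p => ‖kl s t‖ ^ 4)]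
    calc (S : ℝ) * ‖kl s s‖ ^ 4 = ∑ q ∈ univ.image e, ‖kl q.1 q.2‖ ^ 4 := by
          rw [Finset.sum_image he.injOn]
          simp only [e]
          rw [Finset.sum_congr rfl fun w _ => congrArg (fun z : ℂ => ‖z‖ ^ 4) (kl_scale s s w)]
          simp [S]
      _ ≤ _ := Finset.sum_le_sum_of_subset_of_nonneg (Finset.subset_univ _) fun _ _ _ => by
          positivity
  have h2 : ((quads p).card : ℝ) ≤ 3 * (S : ℝ) ^ 2 := by exact_mod_cast card_quads_le
  have h3 := h1.trans (mul_le_mul_of_nonneg_left h2 (by positivity))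
  have h4 : ‖kl s s‖ ^ 4 ≤ (p : ℝ) ^ 2 * (3 * S) := le_of_mul_le_mul_left (by linarith) hS
  calc ‖kl s s‖ ^ 4 ≤ (p : ℝ) ^ 2 * (3 * S) := h4
    _ ≤ (p : ℝ) ^ 2 * (3 * p) := by gcongr
    _ = _ := by ring

/-- The quadratic character, complex valued. -/
noncomputable def chi (p : ℕ) [Fact p.Prime] : MulChar (ZMod p) ℂ :=
  (quadraticChar (ZMod p)).ringHomComp (Int.castRingHom ℂ)

theorem chi_apply (x : ZMod p) : chi p x = (quadraticChar (ZMod p) x : ℂ) := rfl

variable (hp2 : p ≠ 2)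
include hp2

theorem ringChar_ne_two : ringChar (ZMod p) ≠ 2 := by rwa [ringChar_zmod_n]

theorem two_ne_zero' : (2 : ZMod p) ≠ 0 := Ring.two_ne_zero (ringChar_ne_two hp2)

theorem chi_ne_one : chi p ≠ 1 := by
  intro h
  obtain ⟨a, ha⟩ := quadraticChar_exists_neg_one (ringChar_ne_two hp2)
  have ha0 : a ≠ 0 := by rintro rfl; simp at ha
  have := congrArg (fun c : MulChar (ZMod p) ℂ => c a) h
  rw [MulChar.one_apply (isUnit_iff_ne_zero.2 ha0), chi_apply, ha] at this
  norm_num at this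

theorem norm_sum_chi_shift {t : ZMod p} (ht : t ≠ 0) :
    ‖∑ x : ZMod p, chi p (1 + x) * stdAddChar (t * x)‖ ^ 2 = p := by
  have hprim : (stdAddChar (N := p)).mulShift t ≠ 1 := by
    intro h
    exact ht (by
      by_contra h0
      exact isPrimitive_stdAddChar p h0 h)
  have hsq : gaussSum (chi p) ((stdAddChar (N := p)).mulShift t) ^ 2
      = chi p (-1) * (Fintype.card (ZMod p) : ℂ) :=
    gaussSum_sq (chi_ne_one hp2) ((quadraticChar_isQuadratic _).comp _)
      (AddChar.IsPrimitive.of_ne_one hprim)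
  have e : ∑ x : ZMod p, chi p (1 + x) * stdAddChar (t * x)
      = stdAddChar (-t) * gaussSum (chi p) (stdAddChar.mulShift t) := by
    rw [gaussSum, Finset.mul_sum]
    refine Fintype.sum_equiv (Equiv.addLeft 1) _ _ fun x => ?_
    simp only [Equiv.coe_addLeft, AddChar.mulShift_apply]
    rw [mul_left_comm, ← AddChar.map_add_eq_mul]
    congr 2
    ring
  rw [e, norm_mul, AddChar.norm_apply, one_mul, ← norm_pow, hsq, norm_mul, ZMod.card,
    Complex.norm_natCast, chi_apply]
  rcases quadraticChar_dichotomy (show (-1 : ZMod p) ≠ 0 by simp) with h | h <;> simp [h]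

theorem sum_chi_sq_sub_one (t : ZMod p) :
    ∑ x : ZMod p, ((1 : ℂ) + chi p (x ^ 2 - 1)) * stdAddChar (t * x) = kl (t / 2) (t / 2) := by
  have h2 := two_ne_zero' hp2
  set P := (univ : Finset (ZMod p × ZMod p)).filter fun q => q.2 ^ 2 = q.1 ^ 2 - 1
  have e1 : ∑ x : ZMod p, ((1 : ℂ) + chi p (x ^ 2 - 1)) * stdAddChar (t * x)
      = ∑ q ∈ P, stdAddChar (t * q.1) := by
    rw [Finset.sum_filter, Fintype.sum_prod_type]
    refine Finset.sum_congr rfl fun x _ => ?_
    rw [← Finset.sum_filter]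
    simp only [Finset.sum_const, nsmul_eq_mul]
    congr 1
    have h := quadraticChar_card_sqrts (ringChar_ne_two hp2) (x ^ 2 - 1)
    rw [chi_apply]
    have e : {y : ZMod p | y ^ 2 = x ^ 2 - 1}.toFinset
        = univ.filter fun y : ZMod p => y ^ 2 = x ^ 2 - 1 := by ext y; simp
    rw [e] at h
    have h' : (((univ.filter fun y : ZMod p => y ^ 2 = x ^ 2 - 1).card : ℤ) : ℂ)
        = ((quadraticChar (ZMod p) (x ^ 2 - 1) + 1 : ℤ) : ℂ) := by rw [h]
    push_cast at h'
    rw [h']; ring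
  rw [e1, kl]
  symm
  refine Finset.sum_bij (fun (u : (ZMod p)ˣ) _ =>
    (((u : ZMod p) + (u : ZMod p)⁻¹) / 2, ((u : ZMod p) - (u : ZMod p)⁻¹) / 2)) ?_ ?_ ?_ ?_
  · intro u _
    have := u.ne_zero
    simp only [P, Finset.mem_filter, Finset.mem_univ, true_and]
    field_simp
    ring
  · intro u _ w _ h
    simp only [Prod.mk.injEq] at h
    obtain ⟨h3, h4⟩ := h
    apply Units.ext
    have h5 := congrArg₂ (· + ·) h3 h4
    rw [div_left_inj' h2] at h3 h4
    refine mul_left_cancel₀ h2 ?_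
    linear_combination h3 + h4
  · intro q hq
    simp only [P, Finset.mem_filter, Finset.mem_univ, true_and] at hq
    have hm : (q.1 + q.2) * (q.1 - q.2) = 1 := by linear_combination -hq
    refine ⟨⟨q.1 + q.2, q.1 - q.2, hm, by rw [mul_comm]; exact hm⟩, Finset.mem_univ _, ?_⟩
    have hi : (q.1 + q.2)⁻¹ = q.1 - q.2 := inv_eq_of_mul_eq_one_right hm
    simp only [hi]
    ext <;> field_simp <;> ring
  · intro u _
    congr 1
    simp only [Units.val_inv_eq_inv_val]
    field_simp

/-- The residues `d` with `1 + d` and `1 - d` both nonsquares. -/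
def dset (p : ℕ) [Fact p.Prime] : Finset (ZMod p) :=
  univ.filter fun d => quadraticChar (ZMod p) (1 + d) = -1 ∧ quadraticChar (ZMod p) (1 - d) = -1

/-- The Fourier transform of `dset`. -/
noncomputable def dhat (p : ℕ) [Fact p.Prime] (t : ZMod p) : ℂ :=
  ∑ d ∈ dset p, stdAddChar (t * d)

theorem dhat_approx (t : ZMod p) :
    ‖4 * dhat p t - ∑ x : ZMod p, (1 - chi p (1 + x)) * (1 - chi p (1 - x)) * stdAddChar (t * x)‖
      ≤ 4 := by
  have hexact : ∀ x : ZMod p, x ≠ 1 → x ≠ -1 → (4 : ℂ) * (if x ∈ dset p then 1 else 0)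
      = (1 - chi p (1 + x)) * (1 - chi p (1 - x)) := by
    intro x h1 h2
    have ha : 1 + x ≠ 0 := fun h => h2 (by linear_combination h)
    have hb : 1 - x ≠ 0 := fun h => h1 (by linear_combination -h)
    rcases quadraticChar_dichotomy ha with ha' | ha' <;>
      rcases quadraticChar_dichotomy hb with hb' | hb' <;>
      simp only [dset, Finset.mem_filter, Finset.mem_univ, true_and, chi_apply, ha', hb'] <;>
      norm_num
  rw [dhat, ← Finset.sum_ite_mem_eq (dset p), Finset.mul_sum, ← Finset.sum_sub_distrib,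
    ← Finset.sum_subset (Finset.subset_univ ({1, -1} : Finset (ZMod p))) fun x _ hx => ?_]
  · refine (norm_sum_le _ _).trans ((Finset.sum_le_card_nsmul _ _ 2 fun x hx => ?_).trans ?_)
    · have hx0 : 1 + x = 0 ∨ 1 - x = 0 := by
        simp only [Finset.mem_insert, Finset.mem_singleton] at hx
        rcases hx with rfl | rfl <;> simp
      have hnot : x ∉ dset p := by
        intro h
        simp only [dset, Finset.mem_filter, Finset.mem_univ, true_and] at h
        rcases hx0 with e | e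
        · rw [e] at h; simp at h
        · rw [e] at h; simp at h
      have hbound : ∀ y : ZMod p, ‖(1 : ℂ) - chi p y‖ ≤ 2 := fun y => by
        by_cases hy : y = 0
        · subst hy; rw [MulChar.map_zero]; norm_num
        · rcases quadraticChar_dichotomy hy with h | h <;> simp [chi_apply, h] <;> norm_num
      rw [if_neg hnot, mul_zero, zero_sub, norm_neg, norm_mul, norm_mul, AddChar.norm_apply, mul_one]
      rcases hx0 with e | e
      · rw [e, MulChar.map_zero, sub_zero, norm_one, one_mul]; exact hbound _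
      · rw [e, MulChar.map_zero, sub_zero, norm_one, mul_one]; exact hbound _
    · have h : ({1, -1} : Finset (ZMod p)).card ≤ 2 := Finset.card_le_two
      rw [nsmul_eq_mul]
      calc (({1, -1} : Finset (ZMod p)).card : ℝ) * 2 ≤ (2 : ℕ) * 2 := by gcongr
        _ = 4 := by norm_num
  · simp only [Finset.mem_insert, Finset.mem_singleton, not_or] at hx
    rw [← hexact x hx.1 hx.2]
    split_ifs <;> ring

theorem sum_weight (t : ZMod p) :
    ∑ x : ZMod p, (1 - chi p (1 + x)) * (1 - chi p (1 - x)) * stdAddChar (t * x)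
      = ∑ x : ZMod p, stdAddChar (t * x) - ∑ x : ZMod p, chi p (1 + x) * stdAddChar (t * x)
        - ∑ x : ZMod p, chi p (1 + x) * stdAddChar (-t * x)
        + chi p (-1) * ∑ x : ZMod p, chi p (x ^ 2 - 1) * stdAddChar (t * x) := by
  rw [show ∑ x : ZMod p, chi p (1 + x) * stdAddChar (-t * x)
      = ∑ x : ZMod p, chi p (1 - x) * stdAddChar (t * x) from
    Fintype.sum_equiv (Equiv.neg _) _ _ fun x => by simp [Equiv.neg_apply],
    Finset.mul_sum, ← Finset.sum_sub_distrib, ← Finset.sum_sub_distrib, ← Finset.sum_add_distrib]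
  refine Finset.sum_congr rfl fun x _ => ?_
  rw [← mul_assoc, ← map_mul (chi p), show (-1) * (x ^ 2 - 1) = (1 + x) * (1 - x) by ring, map_mul (chi p)]
  ring

theorem norm_chi_neg_one : ‖chi p (-1)‖ = 1 := by
  rcases quadraticChar_dichotomy (show (-1 : ZMod p) ≠ 0 by simp) with h | h <;>
    simp [chi_apply, h]

theorem norm_dhat_le {t : ZMod p} (ht : t ≠ 0) {r : ℝ} (hr : 1 ≤ r) (hrp : r ^ 4 = p) :
    ‖dhat p t‖ ≤ 2 * r ^ 3 := by
  have h2 := two_ne_zero' hp2
  have hG : ∀ t : ZMod p, t ≠ 0 →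
      ‖∑ x : ZMod p, chi p (1 + x) * stdAddChar (t * x)‖ ≤ r ^ 3 := fun t ht => by
    have h := norm_sum_chi_shift hp2 ht
    have h' : ‖∑ x : ZMod p, chi p (1 + x) * stdAddChar (t * x)‖ = r ^ 2 := by
      rw [← pow_left_inj₀ (norm_nonneg _) (sq_nonneg r) two_ne_zero, h, ← hrp]; ring
    rw [h']
    exact pow_le_pow_right₀ hr (by norm_num)
  have h0 : ∑ x : ZMod p, stdAddChar (t * x) = 0 := by
    simp_rw [mul_comm t]
    rw [sum_char, if_neg ht]
  have hc : ∑ x : ZMod p, chi p (x ^ 2 - 1) * stdAddChar (t * x) = kl (t / 2) (t / 2) := by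
    rw [← sum_chi_sq_sub_one hp2 t]
    simp only [add_mul, one_mul, Finset.sum_add_distrib, h0, zero_add]
  have hK : ‖kl (t / 2) (t / 2)‖ ≤ 2 * r ^ 3 := by
    refine le_of_pow_le_pow_left₀ (show 4 ≠ 0 by norm_num) (by positivity)
      ((norm_kl_le (div_ne_zero ht h2)).trans ?_)
    rw [← hrp, mul_pow, ← pow_mul, ← pow_mul]
    nlinarith [pow_nonneg (zero_le_one.trans hr) (4 * 3)]
  have happ := dhat_approx hp2 t
  rw [sum_weight hp2 t, h0, hc] at happ
  have h1 := hG t ht
  have h1' := hG (-t) (neg_ne_zero.2 ht)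
  have hcK : ‖chi p (-1) * kl (t / 2) (t / 2)‖ ≤ 2 * r ^ 3 := by
    rw [norm_mul, norm_chi_neg_one hp2, one_mul]; exact hK
  have hr3 : 1 ≤ r ^ 3 := one_le_pow₀ hr
  set A := ∑ x : ZMod p, chi p (1 + x) * stdAddChar (t * x)
  set B := ∑ x : ZMod p, chi p (1 + x) * stdAddChar (-t * x)
  set C := chi p (-1) * kl (t / 2) (t / 2)
  have e : ‖4 * dhat p t‖ ≤ 4 + (‖A‖ + ‖B‖ + ‖C‖) := by
    calc ‖4 * dhat p t‖ = ‖(4 * dhat p t - (0 - A - B + C)) + (-A + -B + C)‖ := by congr 1; ring
      _ ≤ _ := (norm_add_le _ _).trans (add_le_add happ ((norm_add₃_le).trans (by simp)))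
  rw [norm_mul, show ‖(4 : ℂ)‖ = 4 by norm_num] at e
  linarith

theorem card_dset_ge : (p : ℝ) - 5 ≤ 4 * (dset p).card := by
  have happ := dhat_approx hp2 (0 : ZMod p)
  rw [sum_weight hp2 0, dhat] at happ
  simp only [zero_mul, neg_zero, AddChar.map_zero_eq_one, mul_one, Finset.sum_const,
    Finset.card_univ, ZMod.card, nsmul_eq_mul] at happ
  have ha : ∑ x : ZMod p, chi p (1 + x) = 0 :=
    (Fintype.sum_equiv (Equiv.addLeft 1) _ _ fun x => rfl).trans
      (MulChar.sum_eq_zero_of_ne_one (chi_ne_one hp2))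
  have hc := sum_chi_sq_sub_one hp2 (0 : ZMod p)
  simp only [kl, zero_div, zero_mul, AddChar.map_zero_eq_one, mul_one, add_zero,
    Finset.sum_add_distrib, Finset.sum_const, Finset.card_univ, ZMod.card, nsmul_eq_mul,
    ZMod.card_units] at hc
  have hc' : ∑ x : ZMod p, chi p (x ^ 2 - 1) = -1 := by
    rw [Nat.cast_sub hp.out.one_lt.le] at hc
    push_cast at hc
    linear_combination hc
  rw [ha, hc'] at happ
  have hx : ‖chi p (-1) * -1‖ = 1 := by rw [norm_mul, norm_chi_neg_one hp2]; simp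
  have h2 : ‖(p : ℂ)‖ ≤ 4 + (‖chi p (-1) * -1‖ + ‖4 * ((dset p).card : ℂ)‖) := by
    calc ‖(p : ℂ)‖ = ‖-(4 * ((dset p).card : ℂ) - ((p : ℂ) - 0 - 0 + chi p (-1) * -1))
          + (-(chi p (-1) * -1) + 4 * ((dset p).card : ℂ))‖ := by congr 1; ring
      _ ≤ _ := (norm_add_le _ _).trans (add_le_add (by rw [norm_neg]; exact happ)
          ((norm_add_le _ _).trans_eq (by rw [norm_neg])))
  rw [hx, Complex.norm_natCast] at h2
  have h4 : ‖4 * ((dset p).card : ℂ)‖ = 4 * (dset p).card := by simp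
  linarith

omit hp2

/-- The triangle. -/
theorem exists_triangle (hlarge : 100000000 ≤ p) :
    ∃ u v : ZMod p, u ∈ dset p ∧ v ∈ dset p ∧ u - v ∈ dset p := by
  have hp2 : p ≠ 2 := by omega
  by_contra hnone
  push Not at hnone
  set r := Real.sqrt (Real.sqrt p) with hr
  have hp' : (100000000 : ℝ) ≤ p := by exact_mod_cast hlarge
  have hr4 : r ^ 4 = p := by
    rw [hr, show (4 : ℕ) = 2 * 2 by norm_num, pow_mul, Real.sq_sqrt (Real.sqrt_nonneg _),
      Real.sq_sqrt (by linarith)]
  have hr100 : 100 ≤ r := by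
    refine le_of_pow_le_pow_left₀ (show 4 ≠ 0 by norm_num) (Real.sqrt_nonneg _) ?_
    rw [hr4]; linarith
  set D := dset p
  have hneg : ∀ t, dhat p (-t) = conj (dhat p t) := fun t => by
    simp only [dhat, map_sum, ← AddChar.map_neg_eq_conj, neg_mul]
  -- the triple sum vanishes
  have hT : ∑ t : ZMod p, dhat p t * (dhat p (-t) * dhat p (-t)) = 0 := by
    have hterm : ∀ t, dhat p t * (dhat p (-t) * dhat p (-t))
        = ∑ u ∈ D, ∑ v ∈ D, ∑ w ∈ D, stdAddChar (t * (u - v - w)) := by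
      intro t
      simp only [dhat, D]
      rw [Finset.sum_mul]
      refine Finset.sum_congr rfl fun u _ => ?_
      rw [Finset.sum_mul_sum, Finset.mul_sum]
      refine Finset.sum_congr rfl fun v _ => ?_
      rw [Finset.mul_sum]
      refine Finset.sum_congr rfl fun w _ => ?_
      rw [← AddChar.map_add_eq_mul, ← AddChar.map_add_eq_mul]
      congr 1
      ring
    simp_rw [hterm]
    rw [Finset.sum_comm]
    refine Finset.sum_eq_zero fun u hu => ?_
    rw [Finset.sum_comm]
    refine Finset.sum_eq_zero fun v hv => ?_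
    rw [Finset.sum_comm]
    refine Finset.sum_eq_zero fun w hw => ?_
    rw [sum_char, if_neg fun h => hnone u v hu hv (by rwa [sub_eq_zero.1 h])]
  have hP : ∑ t : ZMod p, ‖dhat p t‖ ^ 2 = (p : ℝ) * D.card := by
    apply Complex.ofReal_injective
    push_cast
    simp_rw [← Complex.mul_conj', ← hneg, dhat, Finset.sum_mul_sum, ← AddChar.map_add_eq_mul]
    rw [Finset.sum_comm, mul_comm, ← nsmul_eq_mul, ← Finset.sum_const]
    refine Finset.sum_congr rfl fun u hu => ?_
    rw [Finset.sum_comm]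
    have e : ∀ t v : ZMod p, t * u + -t * v = t * (u - v) := fun t v => by ring
    simp_rw [e, sum_char, sub_eq_zero]
    simp [show u ∈ dset p from hu]
  have h0 : dhat p 0 = D.card := by simp [dhat, D]
  rw [← Finset.add_sum_erase _ _ (Finset.mem_univ (0 : ZMod p)), neg_zero, h0] at hT
  have hb : ‖∑ t ∈ univ.erase (0 : ZMod p), dhat p t * (dhat p (-t) * dhat p (-t))‖
      ≤ 2 * r ^ 3 * (p * D.card) := by
    refine (norm_sum_le _ _).trans ?_
    rw [← hP, Finset.mul_sum]
    refine (Finset.sum_le_sum fun t ht => ?_).trans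
      (Finset.sum_le_sum_of_subset_of_nonneg (Finset.erase_subset _ _) fun _ _ _ => by positivity)
    rw [norm_mul, norm_mul, hneg, Complex.norm_conj, ← sq]
    gcongr
    exact norm_dhat_le hp2 (Finset.ne_of_mem_erase ht) (by linarith) hr4
  rw [eq_neg_of_add_eq_zero_right hT] at hb
  have hcard := card_dset_ge hp2
  have e3 : (D.card : ℝ) * (D.card * D.card) ≤ 2 * r ^ 3 * (p * D.card) := by
    rw [norm_neg] at hb
    refine le_trans (le_of_eq ?_) hb
    simp
  have hD0 : (0 : ℝ) < D.card := by linarith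
  have h5 : (D.card : ℝ) * D.card ≤ 2 * r ^ 3 * p := le_of_mul_le_mul_left (by linarith) hD0
  have h6 : (p : ℝ) / 5 ≤ D.card := by linarith
  have h7 : (p : ℝ) / 5 * (p / 5) ≤ D.card * D.card :=
    mul_le_mul h6 h6 (by linarith) hD0.le
  have hp0 : (0 : ℝ) < p := by linarith
  have h8 : (p : ℝ) ≤ 50 * r ^ 3 := by nlinarith
  rw [← hr4] at h8
  nlinarith [pow_pos (show (0 : ℝ) < r by linarith) 3]

end P042
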